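import Vale.Agent.Lib.P012_helper23.CAssembly

/-!
# P012c, module F: the final bound `N(b) ≤ 50000 log log b`, from the level statement
-/

namespace Vale.Agent.Lib.P012c

open Finset

/-- the statement of module L (`level`). -/
def LevelStmt : Prop :=
  ∀ i : ℕ, 1000 ≤ i →
    ∃ Z : ℕ, 2 ≤ Z ∧ Z ≤ 2 ^ (i * 2 ^ (i + 9)) ∧
      ∀ B : ℕ, Z ∣ B → 0 < B → ∀ c : ℕ, c < 2 ^ 2 ^ (i + 1) → URep 32 ((c : ℚ) / B) B

private theorem final_pow_le_of_log (k b : ℕ) (hb : 0 < b)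
    (h : (k : ℝ) * Real.log 2 ≤ Real.log b) : 2 ^ k ≤ b := by
  have hbr : (0 : ℝ) < b := by exact_mod_cast hb
  have h1 : Real.exp ((k : ℝ) * Real.log 2) ≤ Real.exp (Real.log b) := Real.exp_le_exp.mpr h
  rw [Real.exp_log hbr, mul_comm, Real.exp_mul, Real.exp_log (by norm_num : (0 : ℝ) < 2),
    Real.rpow_natCast] at h1
  exact_mod_cast h1

private theorem final_log_ge_of_pow_le (k b : ℕ) (h : 2 ^ k ≤ b) :
    (k : ℝ) * Real.log 2 ≤ Real.log b := by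
  have h1 : ((2 : ℝ) ^ k) ≤ b := by exact_mod_cast h
  have h2 : Real.log ((2 : ℝ) ^ k) ≤ Real.log b := Real.log_le_log (by positivity) h1
  rwa [Real.log_pow] at h2

private theorem final_i_mul_le (i : ℕ) (hi : 13 ≤ i) : i * 2 ^ 9 ≤ 2 ^ i := by
  induction i, hi using Nat.le_induction with
  | base => norm_num
  | succ n hn ih =>
    rw [pow_succ 2 n]
    have : 2 ^ 9 ≤ n * 2 ^ 9 := Nat.le_mul_of_pos_left _ (by omega)
    nlinarith

private theorem final_i_ge (e b : ℕ) (hb0 : 0 < b) (he : (e : ℝ) * Real.log 2 ≤ 700)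
    (hL : Real.exp 700 ≤ Real.log b) :
    Nat.log 2 b ≠ 0 ∧ e ≤ Nat.log 2 (Nat.log 2 b) := by
  have hlog2' : Real.log 2 < 1 := by
    have := Real.log_two_lt_d9
    linarith
  have hkr : ((2 ^ e : ℕ) : ℝ) ≤ Real.exp 700 := by
    have e2 : (2 : ℝ) ^ e = Real.exp ((e : ℝ) * Real.log 2) := by
      rw [mul_comm, Real.exp_mul, Real.exp_log (by norm_num : (0 : ℝ) < 2), Real.rpow_natCast]
    rw [Nat.cast_pow, Nat.cast_ofNat, e2]
    exact Real.exp_le_exp.mpr he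
  have hkb : 2 ^ 2 ^ e ≤ b := by
    apply final_pow_le_of_log (2 ^ e) b hb0
    have hk0 : (0 : ℝ) ≤ ((2 ^ e : ℕ) : ℝ) := Nat.cast_nonneg _
    calc ((2 ^ e : ℕ) : ℝ) * Real.log 2 ≤ ((2 ^ e : ℕ) : ℝ) * 1 := by
          apply mul_le_mul_of_nonneg_left _ hk0
          linarith
      _ = ((2 ^ e : ℕ) : ℝ) := mul_one _
      _ ≤ Real.log b := hkr.trans hL
  have hkm : 2 ^ e ≤ Nat.log 2 b := Nat.le_log_of_pow_le (by norm_num) hkb
  have hk0 : 0 < 2 ^ e := by positivity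
  exact ⟨by omega, Nat.le_log_of_pow_le (by norm_num) hkm⟩

theorem main_of (hlevel : LevelStmt)
    (b : ℕ) (hb : Real.exp (Real.exp 700) ≤ (b : ℝ)) (a : ℕ) (ha : 1 ≤ a) (hab : a < b) :
    ∃ S : Finset ℕ, (∀ n ∈ S, 2 ≤ n) ∧
      (S.card : ℝ) ≤ 50000 * Real.log (Real.log b) ∧ ∑ n ∈ S, (1 / n : ℚ) = a / b := by
  have hb0 : 0 < b := by omega
  have hbr : (0 : ℝ) < b := by exact_mod_cast hb0
  have hlog2 : (0.69 : ℝ) < Real.log 2 := by
    have := Real.log_two_gt_d9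
    linarith
  have hlog2' : Real.log 2 < 0.6932 := by
    have := Real.log_two_lt_d9
    linarith
  set L : ℝ := Real.log b with hL
  have hLge : Real.exp 700 ≤ L := by
    have := Real.log_le_log (Real.exp_pos _) hb
    rwa [Real.log_exp] at this
  have hLpos : 0 < L := lt_of_lt_of_le (Real.exp_pos _) hLge
  set LL : ℝ := Real.log L with hLL
  have hLLge : 700 ≤ LL := by
    have := Real.log_le_log (Real.exp_pos _) hLge
    rwa [Real.log_exp] at this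
  set m : ℕ := Nat.log 2 b with hm
  set i : ℕ := Nat.log 2 m with hi
  -- `2 ^ 1000 ≤ m`
  have hkey : m ≠ 0 ∧ 1000 ≤ i :=
    final_i_ge 1000 b hb0 (by push_cast; linarith) hLge
  obtain ⟨hm0, hi1000⟩ := hkey
  -- basic inequalities
  have h2i : 2 ^ i ≤ m := Nat.pow_log_le_self 2 hm0
  have hmi : m < 2 ^ (i + 1) := Nat.lt_pow_succ_log_self (by norm_num) m
  have h2m : 2 ^ m ≤ b := Nat.pow_log_le_self 2 (by omega)
  have hbm : b < 2 ^ (m + 1) := Nat.lt_pow_succ_log_self (by norm_num) b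
  have hbM : b ≤ 2 ^ 2 ^ (i + 1) :=
    hbm.le.trans (Nat.pow_le_pow_right (by norm_num) hmi)
  obtain ⟨Z, hZ2, hZle, hdig⟩ := hlevel i hi1000
  have hi9 := final_i_mul_le i (by omega)
  have hZκ : Z ≤ 2 ^ 2 ^ (2 * i) := by
    refine hZle.trans (Nat.pow_le_pow_right (by norm_num) ?_)
    calc i * 2 ^ (i + 9) = (i * 2 ^ 9) * 2 ^ i := by rw [pow_add]; ring
      _ ≤ 2 ^ i * 2 ^ i := Nat.mul_le_mul_right _ hi9
      _ = 2 ^ (2 * i) := by rw [← pow_add]; congr 1; ring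
  have hM2 : 2 ≤ 2 ^ 2 ^ (i + 1) := by
    calc 2 = 2 ^ 1 := by norm_num
      _ ≤ 2 ^ 2 ^ (i + 1) := Nat.pow_le_pow_right (by norm_num) Nat.one_le_two_pow
  have hJ : b * Z ^ 2 ≤ (2 ^ 2 ^ (i + 1)) ^ (512 * i + 1) := by
    calc b * Z ^ 2 ≤ 2 ^ 2 ^ (i + 1) * (2 ^ (i * 2 ^ (i + 9))) ^ 2 :=
          Nat.mul_le_mul hbM (Nat.pow_le_pow_left hZle 2)
      _ = (2 ^ 2 ^ (i + 1)) ^ (512 * i + 1) := by
          rw [← pow_mul, ← pow_mul, ← pow_add]
          congr 1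
          have : 2 ^ (i + 9) = 256 * 2 ^ (i + 1) := by
            rw [pow_add, pow_add]; norm_num; ring
          rw [this]; ring
  obtain ⟨S, hS2, hScard, hSsum⟩ :=
    assembly Z (2 ^ 2 ^ (i + 1)) 32 (2 * i) (512 * i + 1) hZ2 hZκ hM2
      (fun B hZB hB c hc => hdig B hZB hB c hc) a b ha hab hJ
  refine ⟨S, hS2, ?_, hSsum⟩
  -- the numerical estimate
  have hmr : (m : ℝ) * Real.log 2 ≤ L := final_log_ge_of_pow_le m b h2m
  have hir : (i : ℝ) * Real.log 2 ≤ Real.log m := final_log_ge_of_pow_le i m h2i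
  have hmpos : (0 : ℝ) < m := by exact_mod_cast Nat.pos_of_ne_zero hm0
  have hm69 : (m : ℝ) * 0.69 ≤ m * Real.log 2 := mul_le_mul_of_nonneg_left hlog2.le hmpos.le
  have hm2L : (m : ℝ) ≤ 2 * L := by linarith
  have hlogm : Real.log m ≤ 0.6932 + LL := by
    have h1 : Real.log m ≤ Real.log (2 * L) := Real.log_le_log hmpos hm2L
    rw [Real.log_mul (by norm_num) hLpos.ne'] at h1
    linarith
  have hi0 : (0 : ℝ) ≤ i := Nat.cast_nonneg _
  have hi69 : (i : ℝ) * 0.69 ≤ i * Real.log 2 := mul_le_mul_of_nonneg_left hlog2.le hi0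
  have hibound : (i : ℝ) * 0.69 ≤ 0.6932 + LL := by linarith
  have hcardr : (S.card : ℝ) ≤ 32770 * i + 65 := by
    have : S.card ≤ 32770 * i + 65 := by omega
    exact_mod_cast this
  linarith

end Vale.Agent.Lib.P012c
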