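import Vale.Agent.Lib.P012_helper5.Defs

/-!
# P012c, module N2: few integers have many prime factors
-/

namespace Vale.Agent.Lib.P012c

open Finset

/-- `2 ^ ω(g) ≤ τ(g)`. -/
private theorem omega_two_pow_le (g : ℕ) (hg : g ≠ 0) :
    2 ^ g.primeFactors.card ≤ g.divisors.card := by
  classical
  rw [← Finset.card_powerset]
  refine Finset.card_le_card_of_injOn (fun s => ∏ p ∈ s, p) ?_ ?_
  · intro s hs
    have hs' : s ⊆ g.primeFactors := Finset.mem_powerset.mp hs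
    have h1 : (∏ p ∈ s, p) ∣ ∏ p ∈ g.primeFactors, p := Finset.prod_dvd_prod_of_subset _ _ _ hs'
    have h2 : (∏ p ∈ g.primeFactors, p) ∣ g := Nat.prod_primeFactors_dvd g
    exact Nat.mem_divisors.mpr ⟨h1.trans h2, hg⟩
  · intro s hs t ht hst
    have hs' : s ⊆ g.primeFactors := Finset.mem_powerset.mp hs
    have ht' : t ⊆ g.primeFactors := Finset.mem_powerset.mp ht
    have hsp : ∀ p ∈ s, p.Prime := fun p hp => Nat.prime_of_mem_primeFactors (hs' hp)
    have htp : ∀ p ∈ t, p.Prime := fun p hp => Nat.prime_of_mem_primeFactors (ht' hp)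
    have e1 : (∏ p ∈ s, p).primeFactors = s := Nat.primeFactors_prod hsp
    have e2 : (∏ p ∈ t, p).primeFactors = t := Nat.primeFactors_prod htp
    have hst' : (∏ p ∈ s, p) = ∏ p ∈ t, p := hst
    rw [← e1, ← e2, hst']

/-- `∑_{g ≤ X} τ(g) = ∑_{d ≤ X} ⌊X/d⌋`. -/
private theorem omega_sum_divisors (X : ℕ) :
    ∑ g ∈ Icc 1 X, g.divisors.card = ∑ d ∈ Icc 1 X, X / d := by
  classical
  have h1 : ∀ g ∈ Icc 1 X, g.divisors.card = ∑ d ∈ Icc 1 X, if d ∣ g then 1 else 0 := by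
    intro g hg
    rw [Finset.mem_Icc] at hg
    rw [← Finset.card_filter]
    congr 1
    ext d
    simp only [Nat.mem_divisors, Finset.mem_filter, Finset.mem_Icc]
    constructor
    · rintro ⟨hd, _⟩
      refine ⟨⟨Nat.pos_of_dvd_of_pos hd (by omega), ?_⟩, hd⟩
      exact (Nat.le_of_dvd (by omega) hd).trans hg.2
    · rintro ⟨_, hd⟩
      exact ⟨hd, by omega⟩
  rw [Finset.sum_congr rfl h1, Finset.sum_comm]
  refine Finset.sum_congr rfl ?_
  intro d _
  rw [← Finset.card_filter]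
  have := Nat.Ioc_filter_dvd_card_eq_div X d
  rw [← this]
  congr 1

/-- `∑_{d ≤ X} ⌊X/d⌋ ≤ X (1 + log X)`. -/
private theorem omega_sum_div_le (X : ℕ) :
    ((∑ d ∈ Icc 1 X, X / d : ℕ) : ℝ) ≤ X * (1 + Real.log X) := by
  have h1 : ((∑ d ∈ Icc 1 X, X / d : ℕ) : ℝ) ≤ ∑ d ∈ Icc 1 X, (X : ℝ) * ((d : ℝ))⁻¹ := by
    push_cast
    refine Finset.sum_le_sum ?_
    intro d _
    have := @Nat.cast_div_le ℝ _ _ _ X d
    rw [div_eq_mul_inv] at this
    exact this
  have h2 : ∑ d ∈ Icc 1 X, (X : ℝ) * ((d : ℝ))⁻¹ = X * ((harmonic X : ℚ) : ℝ) := by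
    rw [← Finset.mul_sum]
    congr 1
    rw [harmonic_eq_sum_Icc]
    push_cast
    rfl
  have h3 := harmonic_le_one_add_log X
  calc ((∑ d ∈ Icc 1 X, X / d : ℕ) : ℝ) ≤ X * ((harmonic X : ℚ) : ℝ) := by rw [← h2]; exact h1
    _ ≤ X * (1 + Real.log X) := by
        apply mul_le_mul_of_nonneg_left h3 (Nat.cast_nonneg _)

theorem count_omega (X K n : ℕ) (hX : X < 2 ^ 2 ^ n) (T : Finset ℕ) (hT : T ⊆ Icc 1 X)
    (h : ∀ g ∈ T, K < g.primeFactors.card) : T.card * 2 ^ (K + 1) ≤ X * 2 ^ (n + 1) := by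
  classical
  have h1 : T.card * 2 ^ (K + 1) ≤ ∑ g ∈ T, g.divisors.card := by
    rw [← smul_eq_mul, ← Finset.sum_const]
    refine Finset.sum_le_sum ?_
    intro g hg
    have hg1 : 1 ≤ g := (Finset.mem_Icc.mp (hT hg)).1
    calc 2 ^ (K + 1) ≤ 2 ^ g.primeFactors.card := Nat.pow_le_pow_right (by norm_num) (h g hg)
      _ ≤ g.divisors.card := omega_two_pow_le g (by omega)
  have h2 : ∑ g ∈ T, g.divisors.card ≤ ∑ g ∈ Icc 1 X, g.divisors.card :=
    Finset.sum_le_sum_of_subset hT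
  rw [omega_sum_divisors] at h2
  have h3 := omega_sum_div_le X
  rcases Nat.eq_zero_or_pos X with hX0 | hX0
  · subst hX0
    have : T = ∅ := by
      apply Finset.subset_empty.mp
      simpa using hT
    simp [this]
  have h4 : Real.log X ≤ 2 ^ n := by
    have hlt : (X : ℝ) ≤ 2 ^ 2 ^ n := by exact_mod_cast hX.le
    have hpos : (0 : ℝ) < X := by exact_mod_cast hX0
    calc Real.log X ≤ Real.log (2 ^ 2 ^ n) := Real.log_le_log hpos hlt
      _ = (2 ^ n : ℕ) * Real.log 2 := by rw [Real.log_pow]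
      _ ≤ (2 ^ n : ℕ) * 1 := by
          apply mul_le_mul_of_nonneg_left _ (Nat.cast_nonneg _)
          have := Real.log_two_lt_d9
          linarith
      _ = 2 ^ n := by push_cast; ring
  have h5 : (1 : ℝ) + Real.log X ≤ 2 ^ (n + 1) := by
    have : (1 : ℝ) ≤ 2 ^ n := one_le_pow₀ (by norm_num)
    rw [pow_succ]
    linarith
  have h6 : ((∑ d ∈ Icc 1 X, X / d : ℕ) : ℝ) ≤ ((X * 2 ^ (n + 1) : ℕ) : ℝ) := by
    push_cast
    push_cast at h3
    calc _ ≤ (X : ℝ) * (1 + Real.log X) := h3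
      _ ≤ X * 2 ^ (n + 1) := mul_le_mul_of_nonneg_left h5 (Nat.cast_nonneg _)
  have h7 : (∑ d ∈ Icc 1 X, X / d) ≤ X * 2 ^ (n + 1) := by exact_mod_cast h6
  exact h1.trans (h2.trans h7)

end Vale.Agent.Lib.P012c
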